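import Mathlib

/-!
The finite hypergraph Ramsey theorem for subsets of `ℕ`.
-/

set_option autoImplicit false

namespace Crest.Agent.Lib.Ramsey

open Finset

/-- Sets on which the colour of an `(r+1)`-set depends only on its least element. -/
theorem min_homog {κ : Type*} {r : ℕ}
    (ih : ∀ M : ℕ, ∃ N : ℕ, ∀ S : Finset ℕ, N ≤ S.card → ∀ c : Finset ℕ → κ,
      ∃ H ⊆ S, H.card = M ∧ ∃ k : κ, ∀ T ⊆ H, T.card = r → c T = k) (k₀ : κ) :
    ∀ M : ℕ, ∃ N : ℕ, ∀ S : Finset ℕ, N ≤ S.card → ∀ c : Finset ℕ → κ,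
      ∃ H ⊆ S, H.card = M ∧ ∃ d : ℕ → κ, ∀ a ∈ H, ∀ T ⊆ H, (∀ b ∈ T, a < b) → T.card = r →
        c (insert a T) = d a := by
  intro M
  induction M with
  | zero => exact ⟨0, fun S _ c => ⟨∅, empty_subset _, rfl, fun _ => k₀, by simp⟩⟩
  | succ M ihM =>
    obtain ⟨N₁, hN₁⟩ := ihM
    obtain ⟨N₂, hN₂⟩ := ih N₁
    refine ⟨N₂ + 1, fun S hS c => ?_⟩
    have hne : S.Nonempty := card_pos.1 (by omega)
    set a := S.min' hne with ha
    have haS : a ∈ S := S.min'_mem hne
    obtain ⟨H₁, hH₁, hc₁, k, hk⟩ := hN₂ (S.erase a) (by rw [card_erase_of_mem haS]; omega)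
      (fun T => c (insert a T))
    obtain ⟨H₂, hH₂, hc₂, d, hd⟩ := hN₁ H₁ hc₁.ge c
    have hlt : ∀ b ∈ H₁, a < b := by
      intro b hb
      have := mem_erase.1 (hH₁ hb)
      exact lt_of_le_of_ne (S.min'_le b this.2) (Ne.symm this.1)
    have haH : a ∉ H₂ := fun h => lt_irrefl _ (hlt a (hH₂ h))
    refine ⟨insert a H₂, ?_, by rw [card_insert_of_notMem haH, hc₂], Function.update d a k, ?_⟩
    · exact insert_subset haS (hH₂.trans (hH₁.trans (erase_subset _ _)))
    · intro b hb T hT hbT hTc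
      rcases mem_insert.1 hb with rfl | hb'
      · rw [Function.update_self]
        refine hk T (fun e he => ?_) hTc
        rcases mem_insert.1 (hT he) with h | h
        · exact absurd (hbT e he) (by rw [h]; exact lt_irrefl _)
        · exact hH₂ h
      · have hab : a < b := hlt b (hH₂ hb')
        rw [Function.update_of_ne hab.ne']
        refine hd b hb' T (fun e he => ?_) hbT hTc
        rcases mem_insert.1 (hT he) with h | h
        · exact absurd (hbT e he) (by rw [h]; exact not_lt.2 hab.le)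
        · exact h

/-- **Finite hypergraph Ramsey theorem**: every colouring of the `r`-subsets of a large enough
finite set of naturals with finitely many colours has a monochromatic subset of size `M`. -/
theorem ramsey (κ : Type*) [Fintype κ] [Nonempty κ] (r : ℕ) :
    ∀ M : ℕ, ∃ N : ℕ, ∀ S : Finset ℕ, N ≤ S.card → ∀ c : Finset ℕ → κ,
      ∃ H ⊆ S, H.card = M ∧ ∃ k : κ, ∀ T ⊆ H, T.card = r → c T = k := by
  classical
  induction r with
  | zero =>
    intro M
    refine ⟨M, fun S hS c => ?_⟩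
    obtain ⟨H, hH, hc⟩ := exists_subset_card_eq hS
    exact ⟨H, hH, hc, c ∅, fun T _ hT => by rw [card_eq_zero.1 hT]⟩
  | succ r ih =>
    intro M
    obtain ⟨N, hN⟩ := min_homog ih (Classical.arbitrary κ) (Fintype.card κ * M)
    refine ⟨N, fun S hS c => ?_⟩
    obtain ⟨H, hH, hc, d, hd⟩ := hN S hS c
    obtain ⟨k, -, hk⟩ := exists_le_card_fiber_of_mul_le_card_of_maps_to (s := H) (t := univ)
      (f := d) (n := M) (fun _ _ => mem_univ _) univ_nonempty (by rw [hc, card_univ])
    obtain ⟨H', hH', hc'⟩ := exists_subset_card_eq hk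
    have hsub : H' ⊆ H := hH'.trans (filter_subset _ _)
    refine ⟨H', hsub.trans hH, hc', k, fun T hT hTc => ?_⟩
    have hne : T.Nonempty := card_pos.1 (by omega)
    have haT := T.min'_mem hne
    have e := hd (T.min' hne) (hsub (hT haT)) (T.erase (T.min' hne))
      ((erase_subset _ _).trans (hT.trans hsub))
      (fun b hb => lt_of_le_of_ne (T.min'_le b (mem_erase.1 hb).2) (Ne.symm (mem_erase.1 hb).1))
      (by rw [card_erase_of_mem haT]; omega)
    rw [insert_erase haT] at e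
    rw [e]
    exact (mem_filter.1 (hH' (hT haT))).2

/-- Ramsey's theorem for ordered pairs. -/
theorem ramsey_pairs (κ : Type*) [Fintype κ] [Nonempty κ] (M : ℕ) :
    ∃ N : ℕ, ∀ S : Finset ℕ, N ≤ S.card → ∀ c : ℕ → ℕ → κ,
      ∃ H ⊆ S, H.card = M ∧ ∃ k : κ, ∀ i ∈ H, ∀ j ∈ H, i < j → c i j = k := by
  obtain ⟨N, hN⟩ := ramsey κ 2 M
  refine ⟨N, fun S hS c => ?_⟩
  obtain ⟨H, hH, hc, k, hk⟩ := hN S hS (fun T => c (sInf (T : Set ℕ)) (T.sup id))
  refine ⟨H, hH, hc, k, fun i hi j hj hij => ?_⟩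
  have := hk {i, j} (by simp [insert_subset_iff, hi, hj]) (card_pair hij.ne)
  have e1 : sInf (({i, j} : Finset ℕ) : Set ℕ) = i := by
    rw [coe_pair, csInf_pair]; exact inf_eq_left.2 hij.le
  have e2 : ({i, j} : Finset ℕ).sup id = j := by
    simp [hij.le]
  rwa [e1, e2] at this

end Crest.Agent.Lib.Ramsey
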